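import Crest.Agent.Lib.Row155.Defs2
import Crest.Prelude.Def_Shuffle
/-!
Row 155 (Thorp shuffle): SPECIFICATION of all chunks (statements only, `sorry`).
Never import this file in final work: each chunk owner proves the statement in his own file.
-/
set_option autoImplicit false
open Finset Filter
open scoped BigOperators Topology

namespace Crest.Agent.Thorp.Spec
open Crest.Agent.Thorp

/-! ## C1 bridge to the official model, C2 monotonicity -/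

theorem bridge (d K : ℕ) :
    Crest.ProbabilityR.Shuffle.tvFromUniform (2 ^ d) (K * (d + 1)) = tv (passLaw (d + 1) K) := by
  sorry

theorem tv_passLaw_anti (D : ℕ) {K K' : ℕ} (h : K ≤ K') :
    tv (passLaw D K') ≤ tv (passLaw D K) := by
  sorry

/-! ## C3 revealing: visible / hidden decomposition and hybrid argument -/

/-- C3a -/
theorem pass_combine_not_mem (D : ℕ) (A : Finset (V D)) (c c' : Coins D) (p : V D) (hp : p ∉ A) :
    pass D (combine D A c c') p = pass D c p := by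
  sorry

/-- C3a -/
theorem pass_combine_mem (D : ℕ) (A : Finset (V D)) (c c' : Coins D) (p : V D) (hp : p ∈ A) :
    (pass D c).symm (pass D (combine D A c c') p) ∈ A := by
  sorry

/-- C3a: for fixed hidden coins and fixed `A` the map `c ↦ combine A c c'` is a bijection. -/
theorem combine_bijective (D : ℕ) (A : Finset (V D)) (c' : Coins D) :
    Function.Bijective (fun c => combine D A c c') := by
  sorry

/-- C3b: main inequality of the reduction. -/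
theorem passLaw_le (d k K : ℕ) (hk : 1 ≤ k) :
    tv (passLaw (d + 1) (k * (K + 1))) ≤
      (k + 1) * tupleErr (d + 1) K (2 ^ d) + freshErr (Fin (2 ^ d)) (d + 1) k := by
  sorry

/-! ## C4 half of the deck mixes in 46 passes -/

/-- C4a -/
theorem evolve_cond (D : ℕ) {m : ℕ} (x : Fin m ↪ V D) (φ : V D → ℝ) (hφ : ∀ i, φ (x i) = 0)
    (z : Fin m → V D) (y : V D) :
    (𝔼 c : Coins D, if (∀ i, pass D c (x i) = z i) then φ ((pass D c).symm y) else 0) =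
      𝔼 c : Coins D, if (∀ i, pass D c (x i) = z i) then evolve D (rangeF x) c φ y else 0 := by
  sorry

/-- C4b -/
theorem evolve_supp (D : ℕ) (R : Finset (V D)) (c : Coins D) (φ : V D → ℝ)
    (hφ : ∀ p ∈ R, φ p = 0) (y : V D) (hy : (pass D c).symm y ∈ R) : evolve D R c φ y = 0 := by
  sorry

/-- C4b -/
theorem evolve_sum (D : ℕ) (R : Finset (V D)) (c : Coins D) (φ : V D → ℝ)
    (hφ : ∀ p ∈ R, φ p = 0) : ∑ y, evolve D R c φ y = ∑ y, φ y := by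
  sorry

/-- C4b -/
theorem evolve_sq_le (D : ℕ) (R : Finset (V D)) (c : Coins D) (φ : V D → ℝ)
    (hφ : ∀ p ∈ R, φ p = 0) : ∑ y, evolve D R c φ y ^ 2 ≤ ∑ y, φ y ^ 2 := by
  sorry

/-- C4b: box sums after one pass. -/
theorem evolve_BS (D k : ℕ) (hk : k ≤ D) (R : Finset (V D)) (φ : V D → ℝ)
    (hφ : ∀ p ∈ R, φ p = 0) :
    𝔼 c : Coins D, BS D k (evolve D R c φ) ≤ ∑ y, φ y ^ 2 + (∑ y, φ y) ^ 2 / 2 ^ (D - k) := by
  sorry

/-- C4b: energy after one pass from a regular environment. -/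
theorem evolve_energy (s0 D : ℕ) (hD : s0 ≤ D) (ρ : ℝ) (hρ0 : 0 ≤ ρ) (hρ : ρ ≤ 1)
    (R : Finset (V D)) (hR : Reg s0 ρ D R) (φ : V D → ℝ) (hφ : ∀ p ∈ R, φ p = 0) :
    𝔼 c : Coins D, ∑ y, evolve D R c φ y ^ 2 ≤
      (∑ y, φ y) ^ 2 / 2 ^ D + ((1 + ρ) / 2) ^ (D - s0) * ∑ y, φ y ^ 2 +
        ∑ k ∈ Finset.Ico s0 D, ((1 + ρ) / 2) ^ (D - 1 - k) / 2 ^ (k + 1) * BS D k φ := by
  sorry

/-- C4c: a uniformly random tuple of at most half of the positions is regular. -/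
theorem reg_prob (s0 D m : ℕ) (hm : 2 * m ≤ 2 ^ D) :
    (𝔼 x : Fin m ↪ V D, open Classical in if Reg s0 (3 / 4) D (rangeF x) then (0 : ℝ) else 1) ≤
      2 ^ (D + 1) * (9 / 10 : ℝ) ^ (2 ^ s0) := by
  sorry

/-- C4d -/
theorem tupleErr_tendsto :
    Tendsto (fun d : ℕ => tupleErr (d + 1) 46 (2 ^ d)) atTop (𝓝 0) := by
  sorry

/-! ## C5 path law of the butterfly environment -/

theorem eps_comm (D : ℕ) (p q : V D × V D) : eps D p q = eps D q p := by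
  sorry

theorem envP_insert (D : ℕ) (A : Finset (V D)) (c : Coins D) (F : Finset (V D × V D))
    (f : V D × V D) (hf : f ∉ F) (hA : ∀ g ∈ insert f F, g.1 ∈ A)
    (h : envP D A c (insert f F) ≠ 0) :
    envP D A c (insert f F) * 2 ^ kap D A c f.1 f.2 =
      envP D A c F * 2 ^ (∑ g ∈ F, eps D f g) := by
  sorry

theorem envP_iso (D : ℕ) (A : Finset (V D)) (c : Coins D) (F : Finset (V D × V D))
    (hA : ∀ g ∈ F, g.1 ∈ A) (h : envP D A c F ≠ 0) (l : ℕ) (hl : F.card ≤ 2 ^ l) :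
    ∑ f ∈ F, ∑ g ∈ F.erase f, eps D f g ≤ l * F.card := by
  sorry

/-- C5b -/
theorem pathLaw_relLaw {N D : ℕ} (L : Fin N ↪ V D) (c : Coins D) (K : ℕ) :
    PathLaw (relLaw L c)
      (fun a b => kap D (rangeF L) c (L a) (pass D c (L b)))
      (fun f g => eps D (L f.1, pass D c (L f.2)) (L g.1, pass D c (L g.2)))
      (Finset.univ.filter (fun a => badStart D (rangeF L) c K (L a))) K := by
  sorry

/-! ## C6 cycle bound (abstract) -/

/-- C6a: block form of the cycle bound.  `cs` = number of closed components of length `≤ 2^l`,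
all other components cost a factor `N`. -/
theorem block_bound {N : ℕ} {ν : Equiv.Perm (Fin N) → ℝ} {κ : Fin N → Fin N → ℕ}
    {ε : Fin N × Fin N → Fin N × Fin N → ℕ} {Bad : Finset (Fin N)} {K : ℕ}
    (h : PathLaw ν κ ε Bad K) (b l g : ℕ) (hb : Bad.card ≤ b) (hg : 2 * g + l ≤ K)
    (w : Equiv.Perm (Fin N)) (S : Shape) (cs : ℕ)
    (hcs : cs = (Finset.univ.filter (fun j => S.closed j = true ∧ S.len j ≤ 2 ^ l)).card) :
    ∑ x : S.Lab ↪ Fin N, evP ν (S.cons w x) ≤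
      2 * (2 ^ l * ((N : ℝ) / 2 ^ g + b)) ^ cs * (N : ℝ) ^ (S.m - cs) := by
  sorry

/-- C6b: every permutation `τ` and `q ≤ N` have a shape: the labels are `[q] ∪ τ [q]`. -/
theorem exists_shape {N : ℕ} (τ : Equiv.Perm (Fin N)) (q : ℕ) (hq : q ≤ N) :
    ∃ (S : Shape) (e : S.Lab ↪ Fin N),
      (∀ a : S.Lab, S.edge a ↔ ((e a : ℕ) < q)) ∧
      (∀ a : S.Lab, S.edge a → τ (e a) = e (S.next a)) ∧
      (∀ i : Fin N, (i : ℕ) < q → ∃ a, e a = i) ∧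
      (Finset.univ.filter (fun j => S.closed j = true)).card = cyc q τ ∧
      Fintype.card S.Lab = q + (Finset.univ.filter (fun j => S.closed j = false)).card := by
  sorry

theorem cycle_bound_full {N : ℕ} {ν : Equiv.Perm (Fin N) → ℝ} {κ : Fin N → Fin N → ℕ}
    {ε : Fin N × Fin N → Fin N × Fin N → ℕ} {Bad : Finset (Fin N)} {K : ℕ}
    (h : PathLaw ν κ ε Bad K) (b l g : ℕ) (hb : Bad.card ≤ b) (hg : 2 * g + l ≤ K)
    (hW : (1 : ℝ) ≤ 2 ^ l * ((N : ℝ) / 2 ^ g + b)) (w τ : Equiv.Perm (Fin N)) :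
    ∑ x : Equiv.Perm (Fin N), evP ν (Finset.univ.image (fun i => (x (τ i), w (x i)))) ≤
      2 * (2 ^ l * ((N : ℝ) / 2 ^ g + b)) ^ cyc N τ * (N : ℝ) ^ (N / 2 ^ l) := by
  sorry

theorem cycle_bound_part {N : ℕ} {ν : Equiv.Perm (Fin N) → ℝ} {κ : Fin N → Fin N → ℕ}
    {ε : Fin N × Fin N → Fin N × Fin N → ℕ} {Bad : Finset (Fin N)} {K : ℕ}
    (h : PathLaw ν κ ε Bad K) (b l g : ℕ) (hb : Bad.card ≤ b) (hg : 2 * g + l ≤ K)
    (hW : (1 : ℝ) ≤ 2 ^ l * ((N : ℝ) / 2 ^ g + b)) (w τ : Equiv.Perm (Fin N))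
    (q : ℕ) (hq : 4 * q ≤ N) :
    (N.descFactorial q : ℝ) * 𝔼 x : Equiv.Perm (Fin N),
        evP ν ((Finset.univ.filter (fun i : Fin N => (i : ℕ) < q)).image
          (fun i => (x (τ i), w (x i)))) ≤
      2 * (2 ^ l * ((N : ℝ) / 2 ^ g + b)) ^ cyc q τ * (N : ℝ) ^ (q / 2 ^ l) *
        Real.exp (4 * q ^ 2 / N) := by
  sorry

/-! ## C7 the fresh environment is good with high probability -/

theorem good_prob :
    Tendsto (fun d : ℕ => 𝔼 E : Env (Fin (2 ^ d)) (d + 1),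
      if Good d (pK d) (pb d) (ps d) (rangeF E.1) E.2 then (1 : ℝ) else 0) atTop (𝓝 1) := by
  sorry

/-! ## C8 Hölder on the group and cycle generating function -/

/-- C8a -/
theorem group_holder {G : Type*} [Group G] [Fintype G] (φ : G → ℝ) (hφ : ∀ g, 0 ≤ φ g)
    (k : ℕ) (hk : 1 ≤ k) :
    (𝔼 v : Fin k → G, (∏ i, φ (v i)) * φ ((List.ofFn v).prod⁻¹)) ≤
      (𝔼 g, φ g ^ (((k : ℝ) + 1) / k)) ^ k := by
  sorry

/-- C8b -/
theorem expect_pow_cyc (N q : ℕ) (hq : q ≤ N) (z : ℝ) :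
    (𝔼 g : Equiv.Perm (Fin N), z ^ cyc q g) =
      ∏ i ∈ Finset.range q, (1 + (z - 1) / ((N : ℝ) - i)) := by
  sorry

/-- C8c -/
theorem psi_convPow_le {N : ℕ} (r : Equiv.Perm (Fin N) → ℝ) (hr : ∀ g, 0 ≤ r g)
    (hclass : ∀ g h, r (h * g * h⁻¹) = r g) (q : ℕ) (hq : q ≤ N) (B W : ℝ) (hB : 0 ≤ B)
    (hW : 1 ≤ W) (h : ∀ τ, psi r q τ ≤ B * W ^ cyc q τ) (k : ℕ) (hk : 1 ≤ k) :
    psi (convPow r (k + 1)) q 1 ≤ B ^ (k + 1) *
      (∏ i ∈ Finset.range q, (1 + (W ^ (((k : ℝ) + 1) / k) - 1) / ((N : ℝ) - i))) ^ k := by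
  sorry

/-! ## C9 the class function `rGood` -/

theorem rGood_nonneg (d K b s : ℕ) (g : Equiv.Perm (Fin (2 ^ d))) : 0 ≤ rGood d K b s g := by
  sorry

theorem rGood_class (d K b s : ℕ) (g h : Equiv.Perm (Fin (2 ^ d))) :
    rGood d K b s (h * g * h⁻¹) = rGood d K b s g := by
  sorry

theorem rGood_inv (d K b s : ℕ) (g : Equiv.Perm (Fin (2 ^ d))) :
    rGood d K b s g⁻¹ = rGood d K b s g := by
  sorry

theorem rGood_pos (d K b s : ℕ) (f : Equiv.Perm (Fin (2 ^ d)) → ℝ) :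
    0 ≤ quad (rGood d K b s) f := by
  sorry

theorem rGood_mass (d K b s : ℕ) :
    ∑ g, rGood d K b s g =
      𝔼 E : Env (Fin (2 ^ d)) (d + 1), if Good d K b s (rangeF E.1) E.2 then (1 : ℝ) else 0 := by
  sorry

/-- C9b -/
theorem freshErr_le (d K b s k : ℕ) :
    freshErr (Fin (2 ^ d)) (d + 1) k ≤
      (1 - (∑ g, rGood d K b s g) ^ k) +
        (1 / 2) * Real.sqrt (((2 ^ d).factorial : ℝ) * convPow (rGood d K b s) k 1 -
          (∑ g, rGood d K b s g) ^ k) := by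
  sorry

/-- C9c -/
theorem psi_rGood_full (d K b s l g : ℕ) (hg : 2 * g + l ≤ K)
    (hW : (1 : ℝ) ≤ 2 ^ l * (((2 ^ d : ℕ) : ℝ) / 2 ^ g + b)) (τ : Equiv.Perm (Fin (2 ^ d))) :
    psi (rGood d K b s) (2 ^ d) τ ≤
      2 * (2 ^ l * (((2 ^ d : ℕ) : ℝ) / 2 ^ g + b)) ^ cyc (2 ^ d) τ *
        ((2 ^ d : ℕ) : ℝ) ^ (2 ^ d / 2 ^ l) := by
  sorry

/-- C9c -/
theorem psi_rGood_part (d K b s l g : ℕ) (hg : 2 * g + l ≤ K)
    (hW : (1 : ℝ) ≤ 2 ^ l * (((2 ^ d : ℕ) : ℝ) / 2 ^ g + b)) (τ : Equiv.Perm (Fin (2 ^ d)))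
    (q : ℕ) (hq : 4 * q ≤ 2 ^ d) :
    psi (rGood d K b s) q τ ≤
      2 * (2 ^ l * (((2 ^ d : ℕ) : ℝ) / 2 ^ g + b)) ^ cyc q τ *
        ((2 ^ d : ℕ) : ℝ) ^ (q / 2 ^ l) * Real.exp (4 * q ^ 2 / (2 ^ d : ℕ)) := by
  sorry

/-! ## C10 levels -/

/-- C10a: key lemma. -/
theorem pure_alt_zero {N j : ℕ} (hN : 2 * j ≤ N) (φ : (Fin j → Fin N) → ℝ) (hφ : φ ∈ PureFn N j)
    (h : ∀ x x' : Fin j → Fin N, Function.Injective (Sum.elim x x') →
      ∑ S : Finset (Fin j), (-1 : ℝ) ^ S.card * φ (fun i => if i ∈ S then x' i else x i) = 0) :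
    φ = 0 := by
  sorry

/-- C10b: dimension of invariant spaces of pure functions. -/
theorem pure_finrank {N j : ℕ} (hj : 1 ≤ j) (hN : 2 * j ≤ N)
    (W : Submodule ℝ ((Fin j → Fin N) → ℝ)) (hW : W ≤ PureFn N j) (hne : W ≠ ⊥)
    (hinv : ∀ g : Equiv.Perm (Fin N), ∀ φ ∈ W, (fun x => φ (g ∘ x)) ∈ W) :
    ((N - j) / j) ^ j ≤ Module.finrank ℝ W := by
  sorry

/-- C10c: independence. -/
theorem pure_indep {N j q : ℕ} (hq : q + j ≤ N) (hN : 2 * j ≤ N)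
    (φ : (Fin j ↪o Fin q) → (Fin j → Fin N) → ℝ) (hφ : ∀ J, φ J ∈ PureFn N j)
    (h : ∀ x : Fin q → Fin N, Function.Injective x → ∑ J, φ J (x ∘ J) = 0) (J : Fin j ↪o Fin q) :
    φ J = 0 := by
  sorry

/-- C10d: spanning. -/
theorem pure_span {N : ℕ} (j1 : ℕ) (hj1 : j1 ≤ N) (f : Equiv.Perm (Fin N) → ℝ) :
    ∃ (fhi : Equiv.Perm (Fin N) → ℝ) (φ : ∀ j : ℕ, (Fin j ↪o Fin N) → (Fin j → Fin N) → ℝ),
      HighLevel j1 fhi ∧ (∀ j J, φ j J ∈ PureFn N j) ∧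
      ∀ g, f g = fhi g + ∑ j ∈ Finset.range (j1 + 1), ∑ J : Fin j ↪o Fin N, φ j J (g ∘ J) := by
  sorry

/-- C10e: assembly (uses C10a-d). -/
theorem level_bound {N : ℕ} (r : Equiv.Perm (Fin N) → ℝ) (hr : ∀ g, 0 ≤ r g)
    (hmass : ∑ g, r g ≤ 1) (hclass : ∀ g h, r (h * g * h⁻¹) = r g) (hinv : ∀ g, r g⁻¹ = r g)
    (hpos : ∀ f, 0 ≤ quad r f) (j1 : ℕ) (hj1 : 2 * j1 ≤ N) (k : ℕ) (η : ℝ) (hη : 0 ≤ η)
    (hhigh : ∀ f, HighLevel j1 f → quad r f ≤ η * ∑ g, f g ^ 2)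
    (qf : ℕ → ℕ) (hqf : ∀ j, 1 ≤ j → j ≤ j1 → j ≤ qf j ∧ qf j + j ≤ N)
    (M : ℕ → ℝ) (hM : ∀ j, 1 ≤ j → j ≤ j1 → psi (convPow r k) (qf j) 1 ≤ M j) (Minf : ℝ)
    (hMinf : (N.factorial : ℝ) * convPow r (2 * k) 1 ≤ Minf) :
    (N.factorial : ℝ) * convPow r (2 * k + 1) 1 - (∑ g, r g) ^ (2 * k + 1) ≤
      ∑ j ∈ Finset.Icc 1 j1, (N.choose j : ℝ) / (((N - j) / j : ℕ) : ℝ) ^ j *
        (M j / ((qf j).choose j : ℝ)) ^ 2 + η * Minf := by
  sorry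

/-! ## C11 high levels -/

/-- C11a: random transpositions. -/
theorem transposition_level {N : ℕ} (p : ℕ) (hp : 1 ≤ p) (P : Finset (Fin N))
    (f : Equiv.Perm (Fin N) → ℝ)
    (hf : ∀ Q ⊆ P, Q.card = p + 1 → ∀ g : Equiv.Perm (Fin N),
      (∑ s : Equiv.Perm (Fin N), if (∀ i, i ∉ Q → s i = i) then f (s * g) else 0) = 0) :
    ∑ a ∈ P, ∑ b ∈ P.erase a, ∑ g, f g * f (Equiv.swap a b * g) ≤
      (P.card : ℝ) * (p - 1) * ∑ g, f g ^ 2 := by
  sorry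

/-- C11b -/
theorem quad_rGood_high (d K b s j : ℕ) (hj : j ≤ 2 ^ d) (hs : j ≤ 2 * s + 1)
    (f : Equiv.Perm (Fin (2 ^ d)) → ℝ) (hf : HighLevel j f) :
    quad (rGood d K b s) f ≤
      Real.exp (-(((j : ℝ) ^ 2 - 1) / (8 * 2 ^ d))) * ∑ g, f g ^ 2 := by
  sorry

/-! ## C12 assembly -/

theorem freshErr_tendsto :
    Tendsto (fun d : ℕ => freshErr (Fin (2 ^ d)) (d + 1) 33) atTop (𝓝 0) := by
  sorry

theorem final :
    Tendsto (fun d : ℕ => Crest.ProbabilityR.Shuffle.tvFromUniform (2 ^ d) (1600 * (d + 1)))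
      atTop (𝓝 0) := by
  have h1 : Tendsto (fun d : ℕ => (33 + 1) * tupleErr (d + 1) 46 (2 ^ d) +
      freshErr (Fin (2 ^ d)) (d + 1) 33) atTop (𝓝 0) := by
    simpa using (tupleErr_tendsto.const_mul (33 + 1)).add freshErr_tendsto
  refine squeeze_zero (fun d => ?_) (fun d => ?_) h1
  · rw [bridge]
    exact mul_nonneg (by norm_num) (Finset.sum_nonneg fun _ _ => abs_nonneg _)
  · rw [bridge]
    refine (tv_passLaw_anti (d + 1) (K := 33 * (46 + 1)) (by norm_num)).trans ?_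
    exact_mod_cast passLaw_le d 33 46 (by norm_num)

end Crest.Agent.Thorp.Spec
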